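import Vale.Agent.P173.Main

namespace Vale.Agent.Results.P173.Counterexample

universe u v

/-- The Eilenberg-Ganea conjecture fails: some group has cohomological dimension two but no
classifying space of dimension at most two. -/
theorem result : ∃ (Γ : Type) (_ : Group Γ), Vale.Agent.P173.cd Γ = 2 ∧
    ¬ Vale.Agent.P173.HasClassifyingSpace.{u, v} Γ 2 :=
  Vale.Agent.P173.main

end Vale.Agent.Results.P173.Counterexample
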